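import Vale.Agent.H19.Sep

/-!
Direct and stable finiteness of group algebras pass from `K[G/N]` to `K[G]` when the normal
subgroup `N` is free (any rank), or residually a finite `p`-group with `p = char K`.
-/

namespace Vale.Agent.Results.P194.KernelExt

/-- A ring is directly finite if `a b = 1` implies `b a = 1`. -/
def DirectlyFinite (R : Type*) [Ring R] : Prop :=
  ∀ a b : R, a * b = 1 → b * a = 1

/-- A ring is stably finite if all its matrix rings are directly finite. -/
def StablyFinite (R : Type*) [Ring R] : Prop :=
  ∀ n : ℕ, DirectlyFinite (Matrix (Fin n) (Fin n) R)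

/-- `N` is residually a finite `p`-group: every nontrivial element survives in a quotient of
`N` by a normal subgroup of index a power of `p`. -/
def ResiduallyPFinite (p : ℕ) (N : Type*) [Group N] : Prop :=
  ∀ n : N, n ≠ 1 → ∃ M : Subgroup N, M.Normal ∧ n ∉ M ∧ ∃ k : ℕ, M.index = p ^ k

theorem matrix_step {K : Type*} [Field K] {G : Type*} [Group G] (N : Subgroup G) [N.Normal]
    (hs : Vale.Agent.H19.SepPol K N) {ι : Type*} [Fintype ι] [DecidableEq ι]
    (a b : Matrix ι ι (MonoidAlgebra K G)) (hab : a * b = 1)
    (hq : b.map (Vale.Agent.H19.proj K N) * a.map (Vale.Agent.H19.proj K N) = 1) :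
    b * a = 1 := by
  have he : (1 - b * a) * (1 - b * a) = 1 - b * a := by
    have h1 : b * a * (b * a) = b * a := by
      calc b * a * (b * a) = b * (a * b) * a := by simp only [mul_assoc]
        _ = b * a := by rw [hab, mul_one]
    rw [mul_sub, sub_mul, sub_mul, h1]
    simp
  have h0 : (1 - b * a).map (Vale.Agent.H19.proj K N) = 0 := by
    have : (1 - b * a).map (Vale.Agent.H19.proj K N) =
        1 - b.map (Vale.Agent.H19.proj K N) * a.map (Vale.Agent.H19.proj K N) := by
      rw [← Matrix.map_mul, Matrix.map_sub _ (by intros; rw [map_sub]), Matrix.map_one]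
      · exact map_zero _
      · exact map_one _
    rw [this, hq, sub_self]
  have := Vale.Agent.H19.idempotent_matrix_eq_zero N hs (1 - b * a) he h0
  exact (sub_eq_zero.1 this).symm

theorem result {K : Type*} [Field K] {G : Type*} [Group G] (N : Subgroup G) [N.Normal]
    (hN : IsFreeGroup N ∨ ∃ p : ℕ, p.Prime ∧ CharP K p ∧ ResiduallyPFinite p N) :
    (DirectlyFinite (MonoidAlgebra K (G ⧸ N)) → DirectlyFinite (MonoidAlgebra K G)) ∧
    (StablyFinite (MonoidAlgebra K (G ⧸ N)) → StablyFinite (MonoidAlgebra K G)) := by
  have hs : Vale.Agent.H19.SepPol K N := by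
    rcases hN with h | ⟨p, hp, hK, h⟩
    · exact Vale.Agent.H19.sepPol_of_isFreeGroup N
    · have : Fact p.Prime := ⟨hp⟩
      exact Vale.Agent.H19.sepPol_of_residuallyPFinite p N h
  constructor
  · intro hq a b hab
    let m : MonoidAlgebra K G → Matrix (Fin 1) (Fin 1) (MonoidAlgebra K G) :=
      fun x => Matrix.of fun _ _ => x
    have hmul : ∀ x y, m x * m y = m (x * y) := by
      intro x y
      ext1 i j
      simp [m, Matrix.mul_apply]
    have hone : m 1 = 1 := by
      ext1 i j
      have : i = j := Subsingleton.elim _ _
      subst this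
      simp [m]
    have h1 : m a * m b = 1 := by rw [hmul, hab, hone]
    have h2 : (m b).map (Vale.Agent.H19.proj K N) * (m a).map (Vale.Agent.H19.proj K N) = 1 := by
      rw [← Matrix.map_mul, hmul]
      ext1 i j
      have : i = j := Subsingleton.elim _ _
      subst this
      have h3 : Vale.Agent.H19.proj K N a * Vale.Agent.H19.proj K N b = 1 := by
        rw [← map_mul, hab, map_one]
      have h4 := hq _ _ h3
      simp only [Matrix.map_apply, m, Matrix.of_apply, Matrix.one_apply_eq]
      rw [map_mul, h4]
    have h5 := matrix_step N hs (m a) (m b) h1 h2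
    rw [hmul] at h5
    have := congrFun (congrFun h5 0) 0
    simpa [m] using this
  · intro hq n a b hab
    refine matrix_step N hs a b hab ?_
    apply hq n
    rw [← Matrix.map_mul, hab, Matrix.map_one]
    · exact map_zero _
    · exact map_one _

end Vale.Agent.Results.P194.KernelExt
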